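import Vale.Agent.P181.MR.Defs
import Vale.Agent.P181.PLX.Poly

set_option autoImplicit false

/-!
# P181, MR: block [FIN], the polylogarithmic form (helper829)
-/

namespace Vale.Agent.P181.MR.H829

open Vale.Agent.P181.T4 (ex)
open Vale.Agent.P181.H280 (plethMult)
open Vale.Agent.P181.SZ
open Vale.Agent.P181.PL Vale.Agent.P181.PL10

lemma dn_tl {m : ℕ} (lam : Fin (m + 1) → ℕ) : dn lam 1 = ∑ i, tl lam i := by
  unfold dn
  rw [Fin.sum_univ_succ]
  simp [tl]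

lemma tl_ex {m : ℕ} (lam : Fin (m + 1) → ℕ) (i : Fin m) : tl lam i = ex lam ((i : ℕ) + 1) := by
  have h : (i : ℕ) + 1 < m + 1 := by omega
  rw [exlt lam h]
  rfl

/-- **[FIN]** from the core statement (written out) and the polylogarithmic theorem. -/
theorem fin_of (hC : ∃ a₀ : ℕ, ∀ (a b X R m : ℕ) (lam : Fin (m + 1) → ℕ), a₀ ≤ a →
    Antitone lam → ∑ i, lam i = a * b → m ≤ a → 2 ≤ X → X ^ 40 ≤ a → 200 * a ≤ b → b ≤ X * a →
    2 ≤ R → R ≤ m → 100 * ∑ i, tl lam i ≤ a * b →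
    (∀ i : Fin m, (i : ℕ) < R → a ^ 2 ≤ X * tl lam i ∧
      ∀ j : Fin m, R ≤ (j : ℕ) → a ^ 2 + X * tl lam j ≤ X * tl lam i) →
    plethMult a b (m + 1) lam ≤ plethMult b a (m + 1) lam) (hP : PolyS) : FinM := by
  intro C₀ c₀ hC₀ hc₀
  obtain ⟨a₀, hC⟩ := hC
  obtain ⟨C₁, c₁, hC₁, hP⟩ := hP
  obtain ⟨e, he⟩ : ∃ e, e = ⌈c₀⌉₊ + c₁ := ⟨_, rfl⟩
  obtain ⟨K, hK⟩ : ∃ K, K = C₀ + C₁ + 2 := ⟨_, rfl⟩
  have hK2 : 2 ≤ K := by
    rw [hK]
    linarith
  obtain ⟨A0, hA0⟩ := ev (2 * K) (by linarith) e 40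
  obtain ⟨A, hA⟩ : ∃ A, A = max a₀ A0 := ⟨_, rfl⟩
  refine ⟨((200 + A : ℕ) : ℝ), by positivity, ?_⟩
  intro a b R m lam hanti hsum hCa hR hRm h100 hrow
  have hnat : (200 + A) * a ≤ b := by exact_mod_cast hCa
  rcases le_or_gt ((a - 1) ^ 2) b with hb | hb
  · exact H463.big_stmt a b (m + 1) lam hb
  have ha1 : 1 ≤ a := by
    by_contra h0
    have : a = 0 := by omega
    subst this
    simp at hb
  have haA : A ≤ a := by
    by_contra hcon
    push Not at hcon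
    have h1 : (a - 1) ^ 2 ≤ a ^ 2 := Nat.pow_le_pow_left (Nat.sub_le _ _) 2
    have h2 : a ^ 2 ≤ (200 + A) * a := by
      rw [pow_two]
      exact Nat.mul_le_mul_right _ (by omega)
    omega
  have haa₀ : a₀ ≤ a := (hA ▸ le_max_left a₀ A0).trans haA
  have haA0 : A0 ≤ a := (hA ▸ le_max_right a₀ A0).trans haA
  have hlog : 0 ≤ Real.log a := Real.log_natCast_nonneg a
  obtain ⟨L, hL⟩ : ∃ L : ℝ, L = 1 + Real.log a := ⟨_, rfl⟩
  have hev := hA0 a haA0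
  have hPab := hP a b
  rw [← hL] at hrow hev hPab
  have hL1 : 1 ≤ L := by
    rw [hL]
    linarith
  have hLe : 1 ≤ L ^ e := one_le_pow₀ hL1
  obtain ⟨X, hX⟩ : ∃ X : ℕ, X = ⌈K * L ^ e⌉₊ := ⟨_, rfl⟩
  have hX1 : K * L ^ e ≤ X := by
    rw [hX]
    exact Nat.le_ceil _
  have hKL : 2 ≤ K * L ^ e := by nlinarith
  have hX2 : (X : ℝ) ≤ 2 * K * L ^ e := by
    have h1 := Nat.ceil_lt_add_one (show 0 ≤ K * L ^ e by linarith)
    rw [← hX] at h1
    linarith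
  have h2X : 2 ≤ X := by
    have : (2 : ℝ) ≤ X := hKL.trans hX1
    exact_mod_cast this
  have hX40 : X ^ 40 ≤ a := by
    have h1 : (X : ℝ) ^ 40 ≤ a :=
      (pow_le_pow_left₀ (Nat.cast_nonneg _) hX2 40).trans hev
    exact_mod_cast h1
  have haR : (1 : ℝ) ≤ a := by exact_mod_cast ha1
  -- the polylogarithmic theorem
  by_cases hbX : X * a < b
  · refine hPab ?_ _ _
    have h1 : C₁ * L ^ c₁ ≤ K * L ^ e := by
      have h2 : L ^ c₁ ≤ L ^ e := pow_le_pow_right₀ hL1 (by omega)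
      have h3 : C₁ ≤ K := by
        rw [hK]
        linarith
      have h4 : 0 ≤ L ^ c₁ := by positivity
      exact mul_le_mul h3 h2 h4 (by linarith)
    have h2 : ((X * a : ℕ) : ℝ) ≤ b := by exact_mod_cast hbX.le
    rw [Nat.cast_mul] at h2
    calc C₁ * a * L ^ c₁ = C₁ * L ^ c₁ * a := by ring
      _ ≤ X * a := mul_le_mul_of_nonneg_right (h1.trans hX1) (by linarith)
      _ ≤ b := h2
  push Not at hbX
  have hZ0 : 0 < C₀ * L ^ c₀ := mul_pos hC₀ (Real.rpow_pos_of_pos (by linarith) _)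
  have hZX : C₀ * L ^ c₀ ≤ X := by
    refine le_trans ?_ hX1
    have h2 : L ^ c₀ ≤ L ^ e := by
      rw [← Real.rpow_natCast]
      refine Real.rpow_le_rpow_of_exponent_le hL1 ((Nat.le_ceil c₀).trans ?_)
      rw [he]
      push_cast
      linarith [(Nat.cast_nonneg c₁ : (0 : ℝ) ≤ c₁)]
    have h3 : C₀ ≤ K := by
      rw [hK]
      linarith
    exact mul_le_mul h3 h2 (Real.rpow_nonneg (by linarith) _) (by linarith)
  refine trimQ lam fun k mu hmu1 hmu2 hmu3 hka hdn => ?_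
  have hex : ∀ i, ex mu i = ex lam i := by
    intro i
    have h1 := dn_succ mu i
    have h2 := dn_succ lam i
    rw [hdn, hdn] at h1
    omega
  have hk : R + 1 ≤ k := by
    by_contra hcon
    obtain ⟨h1, -⟩ := hrow ⟨R - 1, by omega⟩ (show R - 1 < R by omega)
    have h2 : tl lam ⟨R - 1, by omega⟩ = 0 := by
      rw [tl_ex]
      show ex lam (R - 1 + 1) = 0
      rw [← hex]
      exact exge mu (by omega)
    rw [h2, Nat.cast_zero, mul_zero] at h1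
    have h3 : (1 : ℝ) ≤ (a : ℝ) ^ 2 := one_le_pow₀ haR
    linarith
  obtain ⟨m', rfl⟩ : ∃ m', k = m' + 1 := ⟨k - 1, by omega⟩
  have htl : ∀ i : Fin m', tl mu i = ex lam ((i : ℕ) + 1) := fun i => by rw [tl_ex, hex]
  refine hC a b X R m' mu haa₀ hmu1 hmu2 (by omega) h2X hX40 ?_ hbX hR (by omega) ?_ ?_
  · exact (Nat.mul_le_mul_right a (by omega : 200 ≤ 200 + A)).trans hnat
  · rw [← dn_tl, hdn, dn_tl]
    exact h100
  · intro i hi
    obtain ⟨h1, h2⟩ := hrow ⟨i, by omega⟩ hi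
    rw [tl_ex] at h1 h2
    have e1 : ex lam (((⟨i, by omega⟩ : Fin m) : ℕ) + 1) = ex lam ((i : ℕ) + 1) := rfl
    rw [e1] at h1 h2
    rw [htl]
    have h3 : a ^ 2 ≤ X * ex lam ((i : ℕ) + 1) := by
      have h4 : (a : ℝ) ^ 2 ≤ X * (ex lam ((i : ℕ) + 1) : ℝ) :=
        h1.trans (mul_le_mul_of_nonneg_right hZX (Nat.cast_nonneg _))
      exact_mod_cast h4
    refine ⟨h3, fun j hj => ?_⟩
    rw [htl]
    by_cases hjm : (j : ℕ) < m
    · have h4 := h2 ⟨j, hjm⟩ hj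
      rw [tl_ex] at h4
      have e2 : ex lam (((⟨j, hjm⟩ : Fin m) : ℕ) + 1) = ex lam ((j : ℕ) + 1) := rfl
      rw [e2] at h4
      have h5 : 0 ≤ (ex lam ((i : ℕ) + 1) : ℝ) - ex lam ((j : ℕ) + 1) := by
        by_contra hneg
        push Not at hneg
        have h6 := mul_neg_of_pos_of_neg hZ0 hneg
        have h7 : (0 : ℝ) ≤ (a : ℝ) ^ 2 := by positivity
        linarith
      have h6 := h4.trans (mul_le_mul_of_nonneg_right hZX h5)
      have h7 : ((a ^ 2 + X * ex lam ((j : ℕ) + 1) : ℕ) : ℝ) ≤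
          ((X * ex lam ((i : ℕ) + 1) : ℕ) : ℝ) := by
        push_cast
        linarith
      exact_mod_cast h7
    · rw [exge lam (show m + 1 ≤ (j : ℕ) + 1 by omega), mul_zero, add_zero]
      exact h3

/-- **[FIN]** -/
theorem fin (hC : MainM) (hP : PolyS) : FinM := fin_of hC hP

end Vale.Agent.P181.MR.H829
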